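import Vale.Agent.P064.DenseMain

/-!
The second Kahn-Kalai conjecture when the expectation threshold is at least `n^{-O(1/log log n)}`.
-/

open Vale.Agent.P064

/-- The loss is `exp(O(log(1/p_E) · log log n / log n))`, a constant for large `p_E`. -/
theorem Vale.Agent.Results.P064.DenseCase.result :
    ∃ C : ℝ, 0 < C ∧ ∀ n k : ℕ, 2 ≤ n → k ≤ n → ∀ H : SimpleGraph (Fin k), H ≠ ⊥ →
      pEFrac n H ≤ C * pE n H * Real.exp
        (8 * Real.log (1 / pE n H) * Real.log (Real.log (n : ℝ) + 3) / Real.log (n : ℝ)) ∧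
      pc n H ≤ C * pE n H * Real.log (n : ℝ) * Real.exp
        (8 * Real.log (1 / pE n H) * Real.log (Real.log (n : ℝ) + 3) / Real.log (n : ℝ)) ∧
      ∀ A : ℝ,
        Real.exp (-(A * Real.log (n : ℝ) / Real.log (Real.log (n : ℝ) + 3))) ≤ pE n H →
        pc n H ≤ C * Real.exp (8 * A) * pE n H * Real.log (n : ℝ) :=
  threshold_dense
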