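import Vale.Agent.P064.Degree

/-!
The second Kahn-Kalai conjecture for graphs of bounded maximum degree.
-/

open Vale.Agent.P064

/-- If every vertex of `H` has at most `Δ` neighbours then `p̃_E ≤ C Δ p_E` and
`p_c ≤ C Δ p_E log n`. -/
theorem Vale.Agent.Results.P064.MaxDegree.result :
    ∃ C : ℝ, 0 < C ∧ ∀ n k : ℕ, 2 ≤ n → k ≤ n → ∀ H : SimpleGraph (Fin k), H ≠ ⊥ →
      ∀ Δ : ℕ, (∀ v, (H.neighborSet v).ncard ≤ Δ) →
        pEFrac n H ≤ C * Δ * pE n H ∧ pc n H ≤ C * Δ * pE n H * Real.log (n : ℝ) :=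
  threshold_degree
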