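import Vale.Agent.P064.All

/-!
The second Kahn-Kalai conjecture up to a power of `log log n`, for every graph: the expectation
threshold and its fractional version differ by at most `(log log n)^A`, and
`p_c ≤ C p_E log n (log log n)^A`.
-/

open Vale.Agent.P064

/-- With `ℓ = log (log n + 3)`: `p̃_E ≤ C p_E ℓ^A`, `p_c ≤ C p_E ℓ^A log (e+1)` for every graph with
`e` edges, hence `p_c ≤ C p_E ℓ^A log n`, and `p_c ≤ C p_E log n` if `log (e+1) ℓ^A ≤ log n`. -/
theorem Vale.Agent.Results.P064.PolyLogLog.result :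
    ∃ C : ℝ, 0 < C ∧ ∃ A : ℕ, ∀ n k : ℕ, 2 ≤ n → k ≤ n → ∀ H : SimpleGraph (Fin k), H ≠ ⊥ →
      pEFrac n H ≤ C * pE n H * Real.log (Real.log (n : ℝ) + 3) ^ A ∧
      pc n H ≤ C * pE n H * Real.log ((H.edgeSet.ncard : ℝ) + 1) *
        Real.log (Real.log (n : ℝ) + 3) ^ A ∧
      pc n H ≤ C * pE n H * Real.log (n : ℝ) * Real.log (Real.log (n : ℝ) + 3) ^ A ∧
      (Real.log ((H.edgeSet.ncard : ℝ) + 1) * Real.log (Real.log (n : ℝ) + 3) ^ A ≤ Real.log (n : ℝ) →
        pc n H ≤ C * pE n H * Real.log (n : ℝ)) :=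
  threshold_loglog
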