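import Vale.Agent.P064.Main

/-!
An improved general upper bound towards the second Kahn-Kalai conjecture.
-/

open Vale.Agent.P064

/-- For every graph `H` with `e` edges, the fractional expectation threshold is at most
`p_E · log (e+1)` and the threshold at most `p_E · log^2 (e+1)`, up to a universal constant. -/
theorem Vale.Agent.Results.P064.ThresholdLogEdges.result :
    ∃ C : ℝ, 0 < C ∧ ∀ n k : ℕ, 2 ≤ n → k ≤ n → ∀ H : SimpleGraph (Fin k), H ≠ ⊥ →
      pc n H ≤ C * pE n H * Real.log ((H.edgeSet.ncard : ℝ) + 1) ^ 2 ∧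
      pEFrac n H ≤ C * pE n H * Real.log ((H.edgeSet.ncard : ℝ) + 1) ∧
      pc n H ≤ C * pE n H * Real.log (n : ℝ) ^ 2 ∧
      pEFrac n H ≤ C * pE n H * Real.log (n : ℝ) ∧
      (Real.log ((H.edgeSet.ncard : ℝ) + 1) ^ 2 ≤ Real.log (n : ℝ) →
        pc n H ≤ C * pE n H * Real.log (n : ℝ)) :=
  threshold_edges
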